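import Vale.Agent.P229.Defs
import Vale.Agent.P229.Rotational

namespace Vale.Agent.Results.P229.KillingField

open scoped ContDiff RealInnerProductSpace
open Set Vale.Agent.P229

theorem const_in_y {Ω : Set (ℝ × ℝ)} {g : ℝ × ℝ → ℝ} (hg : ContDiffOn ℝ ∞ g Ω) (hΩ : IsOpen Ω)
    (hy : ∀ q ∈ Ω, fderiv ℝ g q (0, 1) = 0) {x y0 δ : ℝ}
    (hbox : ∀ y ∈ Ioo (y0 - δ) (y0 + δ), (x, y) ∈ Ω) {y : ℝ} (hyI : y ∈ Ioo (y0 - δ) (y0 + δ))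
    (hy0 : y0 ∈ Ioo (y0 - δ) (y0 + δ)) : g (x, y) = g (x, y0) := by
  have hder : ∀ t ∈ Ioo (y0 - δ) (y0 + δ), HasDerivAt (fun t => g (x, t)) 0 t := by
    intro t ht
    have hd : DifferentiableAt ℝ g (x, t) :=
      (hg.differentiableOn (by simp)).differentiableAt (hΩ.mem_nhds (hbox t ht))
    have h1 : HasDerivAt (fun t : ℝ => (x, t)) ((0 : ℝ), (1 : ℝ)) t :=
      (hasDerivAt_const t x).prodMk (hasDerivAt_id t)
    have h2 := hd.hasFDerivAt.comp_hasDerivAt t h1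
    rw [hy _ (hbox t ht)] at h2
    exact h2
  exact isOpen_Ioo.is_const_of_deriv_eq_zero isPreconnected_Ioo
    (fun t ht => (hder t ht).differentiableAt.differentiableWithinAt)
    (fun t ht => (hder t ht).deriv) hyI hy0

theorem result (Ω : Set (ℝ × ℝ)) (g₁₁ g₁₂ g₂₂ : ℝ × ℝ → ℝ)
    (hg : IsSmoothMetric Ω g₁₁ g₁₂ g₂₂)
    (hK : ∀ q ∈ Ω, fderiv ℝ g₁₁ q (0, 1) = 0 ∧ fderiv ℝ g₁₂ q (0, 1) = 0 ∧
      fderiv ℝ g₂₂ q (0, 1) = 0) :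
    ∀ p ∈ Ω, LocallyRealizable g₁₁ g₁₂ g₂₂ p := by
  obtain ⟨hΩ, h11, h12, h22, hpos⟩ := hg
  rintro ⟨x0, y0⟩ hp
  obtain ⟨δ, hδ, hball⟩ := Metric.isOpen_iff.1 hΩ _ hp
  have hbox : ∀ x ∈ Ioo (x0 - δ) (x0 + δ), ∀ y ∈ Ioo (y0 - δ) (y0 + δ), (x, y) ∈ Ω := by
    intro x hx y hy
    apply hball
    rw [← ball_prod_same, mem_prod, Real.ball_eq_Ioo, Real.ball_eq_Ioo]
    exact ⟨hx, hy⟩
  have hy0 : y0 ∈ Ioo (y0 - δ) (y0 + δ) := ⟨by linarith, by linarith⟩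
  have hincl : ContDiffOn ℝ ∞ (fun x : ℝ => (x, y0)) (Ioo (x0 - δ) (x0 + δ)) :=
    (contDiff_id.prodMk contDiff_const).contDiffOn
  have hmaps : MapsTo (fun x : ℝ => (x, y0)) (Ioo (x0 - δ) (x0 + δ)) Ω :=
    fun x hx => hbox x hx y0 hy0
  obtain ⟨a, η, ha, hη, hηδ, ρ, θ, h, ρ', θ', h', hρC, hθC, hhC, hprof⟩ :=
    exists_profile (x0 := x0) hδ (E := fun x => g₁₁ (x, y0)) (F := fun x => g₁₂ (x, y0))
      (G := fun x => g₂₂ (x, y0)) (h11.comp hincl hmaps) (h12.comp hincl hmaps)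
      (h22.comp hincl hmaps) (fun x hx => hpos _ (hbox x hx y0 hy0))
  refine ⟨Ioo (x0 - η) (x0 + η) ×ˢ Ioo (y0 - δ) (y0 + δ), isOpen_Ioo.prod isOpen_Ioo,
    ⟨⟨by simp only; linarith, by simp only; linarith⟩, hy0⟩, rotMap a ρ θ h,
    rotMap_contDiffOn a hρC hθC hhC _, ?_⟩
  rintro ⟨x, y⟩ ⟨hx, hy⟩
  simp only at hx hy
  have hxδ : x ∈ Ioo (x0 - δ) (x0 + δ) := ⟨by linarith [hx.1], by linarith [hx.2]⟩
  obtain ⟨d1, d2, d3, e1, e2, e3⟩ := hprof x hx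
  obtain ⟨m1, m2, m3⟩ := rotMap_metric a (x, y) d1 d2 d3
  rw [m1, m2, m3]
  simp only
  rw [e1, e2, e3]
  refine ⟨?_, ?_, ?_⟩
  · exact (const_in_y h11 hΩ (fun q hq => (hK q hq).1) (hbox x hxδ) hy hy0).symm
  · exact (const_in_y h12 hΩ (fun q hq => (hK q hq).2.1) (hbox x hxδ) hy hy0).symm
  · exact (const_in_y h22 hΩ (fun q hq => (hK q hq).2.2) (hbox x hxδ) hy hy0).symm

end Vale.Agent.Results.P229.KillingField
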